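import Vale.Agent.P088.R2.H516.O.WB
import Vale.Agent.P088.R2.H858.B1.Pc
import Vale.Agent.P088.R2.H464.EP.Rq
import Vale.Agent.P088.R2.H31.EP.Pack

/-!
# P088, zone B1: the Hessian form of the weight from above, and the partition on the package
-/

open MeasureTheory Set Filter
open scoped ContDiff Topology Matrix

noncomputable section

namespace Vale.Agent.P088.R2.H858.B1

open Vale.Agent.P088.R2.H961.GW Vale.Agent.P088.R2.H644 Vale.Agent.P088.R2.H676.F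
open Vale.Agent.P088.R2.H516.O

section abs

variable {n : ℕ} {E : Type*} [NormedAddCommGroup E] [NormedSpace ℝ E]
  {σ τ : Sl E (Fin n)} {W : E → ℝ} {z : E} {C X : ℝ}

theorem sum2_le {F : Fin n → Fin n → ℝ} {B : ℝ} (h : ∀ i j, |F i j| ≤ B) :
    |∑ i, ∑ j, F i j| ≤ (n : ℝ) ^ 2 * B := by
  calc |∑ i, ∑ j, F i j| ≤ ∑ i, |∑ j, F i j| := Finset.abs_sum_le_sum_abs _ _
    _ ≤ ∑ _i : Fin n, (n : ℝ) * B := by
        refine Finset.sum_le_sum fun i _ => ?_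
        calc |∑ j, F i j| ≤ ∑ j, |F i j| := Finset.abs_sum_le_sum_abs _ _
          _ ≤ ∑ _j : Fin n, B := Finset.sum_le_sum fun j _ => h i j
          _ = n * B := by rw [Finset.sum_const, Finset.card_univ, Fintype.card_fin, nsmul_eq_mul]
    _ = _ := by rw [Finset.sum_const, Finset.card_univ, Fintype.card_fin, nsmul_eq_mul]; ring

theorem ab_mul {a b A B : ℝ} (ha : |a| ≤ A) (hb : |b| ≤ B) : |a * b| ≤ A * B := by
  rw [abs_mul]
  exact mul_le_mul ha hb (abs_nonneg _) ((abs_nonneg _).trans ha)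

theorem ab_add {a b A B : ℝ} (ha : |a| ≤ A) (hb : |b| ≤ B) : |a + b| ≤ A + B :=
  (abs_add_le a b).trans (add_le_add ha hb)

/-- The Hessian of one slot. -/
theorem Hc_le (s : ∀ i j, |σ.s i j z| ≤ 2) (t : ∀ l i j, |σ.D l (σ.s i j) z| ≤ C)
    (hη : ∀ i, σ.η i z = 0) (w : ∀ i, |σ.D i W z| ≤ X) (h : ∀ i j, |σ.D i (σ.D j W) z| ≤ X)
    (i l : Fin n) : |σ.Hc W i l z| ≤ (n : ℝ) ^ 2 * ((4 + 3 * C) * X) := by
  have key : ∀ j k, |σ.s i j z * σ.s k l z * (σ.D j (σ.D k W) z + σ.D k (σ.D j W) z) +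
    (σ.s i j z * (σ.D j (σ.s k l) z + σ.η j z * σ.s k l z) +
      σ.s l j z * (σ.D j (σ.s k i) z + σ.η j z * σ.s k i z)) * σ.D k W z -
    σ.s j k z * σ.D j W z * σ.D k (σ.s i l) z - 2 * (σ.s j k z * σ.D j W z * σ.η k z) *
      σ.s i l z| ≤ 2 * ((4 + 3 * C) * X) := by
    intro j k
    have a1 : |σ.s i j z * σ.s k l z * (σ.D j (σ.D k W) z + σ.D k (σ.D j W) z)| ≤
        2 * 2 * (X + X) := ab_mul (ab_mul (s _ _) (s _ _)) (ab_add (h _ _) (h _ _))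
    have a2 : |(σ.s i j z * σ.D j (σ.s k l) z + σ.s l j z * σ.D j (σ.s k i) z) * σ.D k W z| ≤
        (2 * C + 2 * C) * X :=
      ab_mul (ab_add (ab_mul (s _ _) (t _ _ _)) (ab_mul (s _ _) (t _ _ _))) (w _)
    have a3 : |σ.s j k z * σ.D j W z * σ.D k (σ.s i l) z| ≤ 2 * X * C :=
      ab_mul (ab_mul (s _ _) (w _)) (t _ _ _)
    rw [hη j, hη k]
    simp only [zero_mul, add_zero, mul_zero, sub_zero]
    rw [abs_le] at a1 a2 a3 ⊢
    constructor <;> nlinarith [a1.1, a1.2, a2.1, a2.2, a3.1, a3.2]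
  unfold Sl.Hc
  rw [abs_mul, abs_of_pos (by norm_num : (0:ℝ) < 1 / 2)]
  have := sum2_le key
  linarith

/-- The mixed Hessian. -/
theorem Mc_le (s : ∀ i j, |σ.s i j z| ≤ 2) (s' : ∀ i j, |τ.s i j z| ≤ 2)
    (h : ∀ i j, |σ.D i (τ.D j W) z| ≤ X) (i k : Fin n) :
    |Ch.Mc σ τ W i k z| ≤ (n : ℝ) ^ 2 * (4 * X) := by
  unfold Ch.Mc
  refine sum2_le fun j l => ?_
  have := ab_mul (ab_mul (s i j) (s' k l)) (h j l)
  linarith

theorem form_le {F : Fin n → Fin n → ℝ} {B : ℝ} (hF : ∀ i j, |F i j| ≤ B) (q : Fin n → ℝ)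
    (x y : ℝ) : ∑ i, ∑ j, F i j * (x * q i) * (y * q j) ≤
      n * B * (1 / 2 * (x ^ 2 + y ^ 2)) * ∑ i, q i ^ 2 := by
  have t : ∀ i j, F i j * (x * q i) * (y * q j) ≤
      B * (1 / 2 * (x ^ 2 + y ^ 2)) * (1 / 2 * (q i ^ 2 + q j ^ 2)) := by
    intro i j
    have e1 : |x * y| ≤ 1 / 2 * (x ^ 2 + y ^ 2) := by
      rw [abs_le]; constructor <;> nlinarith [sq_nonneg (x + y), sq_nonneg (x - y)]
    have e2 : |q i * q j| ≤ 1 / 2 * (q i ^ 2 + q j ^ 2) := by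
      rw [abs_le]; constructor <;> nlinarith [sq_nonneg (q i + q j), sq_nonneg (q i - q j)]
    have e3 := ab_mul (ab_mul (hF i j) e1) e2
    have e4 : F i j * (x * q i) * (y * q j) = F i j * (x * y) * (q i * q j) := by ring
    rw [e4]
    exact (le_abs_self _).trans e3
  refine (Finset.sum_le_sum fun i _ => Finset.sum_le_sum fun j _ => t i j).trans_eq ?_
  have e : ∀ i, ∑ j, B * (1 / 2 * (x ^ 2 + y ^ 2)) * (1 / 2 * (q i ^ 2 + q j ^ 2)) =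
      B * (1 / 2 * (x ^ 2 + y ^ 2)) * (1 / 2 * (n * q i ^ 2 + ∑ j, q j ^ 2)) := by
    intro i
    rw [← Finset.mul_sum, ← Finset.mul_sum, Finset.sum_add_distrib, Finset.sum_const,
      Finset.card_univ, Fintype.card_fin, nsmul_eq_mul]
  rw [Finset.sum_congr rfl fun i _ => e i, ← Finset.mul_sum, ← Finset.mul_sum,
    Finset.sum_add_distrib, Finset.sum_const, Finset.card_univ, Fintype.card_fin, nsmul_eq_mul,
    ← Finset.mul_sum]
  ring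

/-- **The Hessian form from above.** -/
theorem HB_of {e wc : E → ℝ} (s : ∀ i j, |σ.s i j z| ≤ 2) (s' : ∀ i j, |τ.s i j z| ≤ 2)
    (t : ∀ l i j, |σ.D l (σ.s i j) z| ≤ C) (t' : ∀ l i j, |τ.D l (τ.s i j) z| ≤ C)
    (hη : ∀ i, σ.η i z = 0) (hη' : ∀ i, τ.η i z = 0)
    (w : ∀ i, |σ.D i W z| ≤ X) (w' : ∀ i, |τ.D i W z| ≤ X)
    (h : ∀ i j, |σ.D i (σ.D j W) z| ≤ X) (h' : ∀ i j, |τ.D i (τ.D j W) z| ≤ X)
    (hm : ∀ i j, |σ.D i (τ.D j W) z| ≤ X) (C0 : 0 ≤ C) {D e₀ : ℝ} (D0 : 0 ≤ D) (hX : X ≤ D * e₀)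
    (he : e₀ ≤ e z) (hw : e₀ ≤ wc z) :
    HB σ τ W e wc ((n : ℝ) ^ 3 * ((4 + 2 * C) * D)) z := by
  intro q x y
  have n0 : (0:ℝ) ≤ n := Nat.cast_nonneg n
  have q0 : 0 ≤ ∑ i, q i ^ 2 := Finset.sum_nonneg fun i _ => sq_nonneg _
  have f1 := form_le (Hc_le s t hη w h) q x x
  have f2 := form_le (Hc_le s' t' hη' w' h') q y y
  have f3 := form_le (Mc_le s s' hm) q x y
  have b1 : Ch.TH σ τ W z (fun i => x * q i) (fun i => y * q i) ≤
      (n : ℝ) ^ 3 * ((4 + 2 * C) * X) * ((x + y) ^ 2 + (x - y) ^ 2) * ∑ i, q i ^ 2 := by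
    unfold Ch.TH
    refine (add_le_add (add_le_add f1 (mul_le_mul_of_nonneg_left f3 (by norm_num))) f2).trans ?_
    have e1 : (n : ℝ) * ((n : ℝ) ^ 2 * ((4 + 3 * C) * X)) * (1 / 2 * (x ^ 2 + x ^ 2)) *
          (∑ i, q i ^ 2) +
        2 * ((n : ℝ) * ((n : ℝ) ^ 2 * (4 * X)) * (1 / 2 * (x ^ 2 + y ^ 2)) * ∑ i, q i ^ 2) +
        (n : ℝ) * ((n : ℝ) ^ 2 * ((4 + 3 * C) * X)) * (1 / 2 * (y ^ 2 + y ^ 2)) *
          (∑ i, q i ^ 2) =
        ((x ^ 2 + y ^ 2) * (∑ i, q i ^ 2)) * ((n : ℝ) ^ 3 * ((8 + 3 * C) * X)) := by ring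
    have e2 : (n : ℝ) ^ 3 * ((4 + 2 * C) * X) * ((x + y) ^ 2 + (x - y) ^ 2) * ∑ i, q i ^ 2 =
        ((x ^ 2 + y ^ 2) * (∑ i, q i ^ 2)) * ((n : ℝ) ^ 3 * ((8 + 4 * C) * X)) := by ring
    rw [e1, e2]
    have X0 : 0 ≤ (n : ℝ) ^ 3 * (C * X) := by
      rcases Nat.eq_zero_or_pos n with rfl | hn
      · norm_num
      · have : 0 ≤ X := (abs_nonneg _).trans (w ⟨0, hn⟩)
        positivity
    refine mul_le_mul_of_nonneg_left ?_ (by positivity)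
    nlinarith
  refine b1.trans ?_
  refine mul_le_mul_of_nonneg_right ?_ q0
  have c1 : (n : ℝ) ^ 3 * ((4 + 2 * C) * X) ≤ (n : ℝ) ^ 3 * ((4 + 2 * C) * (D * e₀)) :=
    mul_le_mul_of_nonneg_left (mul_le_mul_of_nonneg_left hX (by positivity)) (by positivity)
  have c2 : e₀ * (x + y) ^ 2 ≤ e z * (x + y) ^ 2 := mul_le_mul_of_nonneg_right he (sq_nonneg _)
  have c3 : e₀ * (x - y) ^ 2 ≤ wc z * (x - y) ^ 2 := mul_le_mul_of_nonneg_right hw (sq_nonneg _)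
  calc (n : ℝ) ^ 3 * ((4 + 2 * C) * X) * ((x + y) ^ 2 + (x - y) ^ 2)
      ≤ (n : ℝ) ^ 3 * ((4 + 2 * C) * (D * e₀)) * ((x + y) ^ 2 + (x - y) ^ 2) :=
        mul_le_mul_of_nonneg_right c1 (by positivity)
    _ = (n : ℝ) ^ 3 * ((4 + 2 * C) * D) * (e₀ * (x + y) ^ 2 + e₀ * (x - y) ^ 2) := by ring
    _ ≤ _ := mul_le_mul_of_nonneg_left (add_le_add c2 c3) (by positivity)

/-- **The Hessian form from above, from the bounds `WB`.** -/
theorem HB_WB {e wc : E → ℝ} {e₀ r N : ℝ} (h : WB σ τ W C e₀ r N z) (hη : ∀ i, σ.η i z = 0)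
    (hη' : ∀ i, τ.η i z = 0) (C0 : 0 ≤ C) (hr : e₀ * r + N ≤ e₀) (he : e₀ ≤ e z)
    (hw : e₀ ≤ wc z) : HB σ τ W e wc ((n : ℝ) ^ 3 * ((4 + 2 * C) * C)) z :=
  HB_of h.s1 h.s2 h.t1 h.t2 hη hη' (fun i => (h.w1 i).trans (mul_le_mul_of_nonneg_left hr C0))
    (fun i => (h.w2 i).trans (mul_le_mul_of_nonneg_left hr C0)) h.h1 h.h2 h.hm C0 C0 le_rfl he hw

theorem Lc.η {L : E →L[ℝ] (Fin n → ℝ)} {c : ℝ} (h : Lc σ L c) (i : Fin n) (z : E) :
    σ.η i z = 0 := by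
  have e : σ.ρ = fun _ => (1:ℝ) := funext h.ρ
  simp [Sl.η, e]

end abs

/-! ## The package -/

section pk

open Vale.Agent.P088.LR Vale.Agent.P088.HY Vale.Agent.P088.R2.H31.EP
open Vale.Agent.P088.R2.H464.Cu (mid midL midL_apply)

variable {n : ℕ}

/-- `z ↦ mid z / A`. -/
def LA (n : ℕ) (A : ℝ) : VV n →L[ℝ] (Fin n → ℝ) := A⁻¹ • midL n

theorem LA_apply (A : ℝ) (z : VV n) (j : Fin n) : LA n A z j = A⁻¹ * mid z j := rfl

theorem Lc_x (s : MF n) (A : ℝ) : Lc (slx (fun _ => (1:ℝ)) s) (LA n A) (1 / (2 * A)) where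
  ρ _ := rfl
  e i := by
    funext j
    simp only [LA_apply, slx, H464.Cu.mid_apply, Pi.smul_apply, smul_eq_mul, Pi.zero_apply,
      add_zero]
    ring

theorem Lc_y (s : MF n) (A : ℝ) : Lc (sly (fun _ => (1:ℝ)) s) (LA n A) (1 / (2 * A)) where
  ρ _ := rfl
  e i := by
    funext j
    simp only [LA_apply, sly, H464.Cu.mid_apply, Pi.smul_apply, smul_eq_mul, Pi.zero_apply,
      zero_add]
    ring

/-- The cell. -/
theorem mem_cell {A : ℝ} (hA : 0 < A) (k : Fin n → ℤ) (z : VV n) :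
    z ∈ cell (LA n A) k ↔ ∀ j, |mid z j - A * k j| < 3 / 2 * A := by
  unfold cell
  simp only [mem_ofPred_eq, LA_apply]
  refine forall_congr' fun j => ?_
  have e : A⁻¹ * mid z j - (k j : ℝ) = A⁻¹ * (mid z j - A * k j) := by
    rw [mul_sub, inv_mul_cancel_left₀ hA.ne']
  rw [e, abs_mul, abs_of_pos (inv_pos.2 hA), inv_mul_lt_iff₀ hA, mul_comm A (3 / 2)]

/-- Entries of a tensor near the identity. -/
theorem ent {s : MF n} {K : ℕ} {ε R : ℝ} (hK : 1 ≤ K) (hε : ε ≤ 1) (hR : 1 ≤ R)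
    (cl : ∀ i j, ∀ m ≤ K, ∀ x,
      ‖iteratedFDeriv ℝ m (fun x => s x i j - (1 : Matrix (Fin n) (Fin n) ℝ) i j) x‖ ≤
        ε * R⁻¹ ^ m) (i j : Fin n) (x : V n) : |s x i j| ≤ 2 ∧ ∀ l, |pd l (fun y => s y i j) x| ≤ 1 := by
  constructor
  · have h := cl i j 0 (Nat.zero_le _) x
    rw [norm_iteratedFDeriv_zero, Real.norm_eq_abs, pow_zero, mul_one] at h
    have h1 : |(1 : Matrix (Fin n) (Fin n) ℝ) i j| ≤ 1 := by
      rw [Matrix.one_apply]; split_ifs <;> norm_num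
    have := abs_sub_abs_le_abs_sub (s x i j) ((1 : Matrix (Fin n) (Fin n) ℝ) i j)
    linarith
  · intro l
    have h := cl i j 1 hK x
    rw [norm_iteratedFDeriv_one, pow_one] at h
    have d : fderiv ℝ (fun x => s x i j - (1 : Matrix (Fin n) (Fin n) ℝ) i j) x =
        fderiv ℝ (fun x => s x i j) x := fderiv_sub_const _
    rw [d] at h
    have e : ‖(Pi.single l (1:ℝ) : V n)‖ = 1 := by rw [Pi.norm_single]; norm_num
    have h2 := (fderiv ℝ (fun x => s x i j) x).le_opNorm (Pi.single l (1:ℝ))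
    rw [e, mul_one, Real.norm_eq_abs] at h2
    refine (show |pd l (fun y => s y i j) x| ≤ _ from h2).trans (h.trans ?_)
    have : R⁻¹ ≤ 1 := inv_le_one_of_one_le₀ hR
    have r0 : 0 ≤ R⁻¹ := inv_nonneg.2 (by linarith)
    nlinarith

variable {q : Cst} {d : Pk n}

theorem Sb_x (ok : PkOk q d) (hε : q.ε ≤ 1) (hR : 1 ≤ q.R) (z : VV n) :
    Sb2 d.sx z where
  s i j := (ent (by norm_num) hε hR ok.rg.cl₁ i j z.1).1
  d l i j := by
    have := (ent (by norm_num) hε hR ok.rg.cl₁ i j z.1).2 l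
    have hd : DifferentiableAt ℝ (fun y => d.s₁ y i j) z.1 :=
      ((ok.rg.sm₁ i j).differentiable (by simp)) z.1
    have e : d.sx.D l (d.sx.s i j) z = pd l (fun y => d.s₁ y i j) z.1 := by
      have := Dx_fst (r := fun _ => (1:ℝ)) (s := d.s₁) hd l
      rw [one_mul] at this
      exact this
    rw [e]
    exact this
  k i := by
    simp [Pk.sx, slx, pd]

theorem Sb_y (ok : PkOk q d) (hε : q.ε ≤ 1) (hR : 1 ≤ q.R) (z : VV n) :
    Sb2 d.sy z where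
  s i j := (ent (by norm_num) hε hR ok.rg.cl₂ i j z.2).1
  d l i j := by
    have := (ent (by norm_num) hε hR ok.rg.cl₂ i j z.2).2 l
    have hd : DifferentiableAt ℝ (fun y => d.s₂ y i j) z.2 :=
      ((ok.rg.sm₂ i j).differentiable (by simp)) z.2
    have e : d.sy.D l (d.sy.s i j) z = pd l (fun y => d.s₂ y i j) z.2 := by
      have := Dy_snd (r := fun _ => (1:ℝ)) (s := d.s₂) hd l
      rw [one_mul] at this
      exact this
    rw [e]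
    exact this
  k i := by
    simp [Pk.sy, sly, pd]

/-- **The partition on the package.**  `b = n³ (4 + 2 C) C`, `C` the constant of `WB`, `B` the
constant of the one dimensional function, `A` the size of the cells. -/
theorem part_pk (ok : PkOk q d) (hε : q.ε ≤ 1) (hR : 1 ≤ q.R)
    {U Ω : Set (VV n)} {A B C : ℝ} (hA : 1 ≤ A) (hB : ∀ m ≤ 2, ∀ t, |Fd m t| ≤ B) (C0 : 0 ≤ C)
    (hΩ : IsOpen Ω) {r e wc : VV n → ℝ}
    (wb : ∀ z ∈ Ω, WB d.sx d.sy (d.W q) C (d.E q z) (r z) (d.N q z) z)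
    (hr : ∀ z ∈ Ω, d.E q z * r z + d.N q z ≤ d.E q z) (he : ∀ z ∈ Ω, d.E q z ≤ e z)
    (hw : ∀ z ∈ Ω, d.E q z ≤ wc z) (K : Set (VV n)) (hK : IsCompact K) (hKΩ : K ⊆ Ω) :
    ∃ (S : Finset (Fin n → ℤ)) (ψ : (Fin n → ℤ) → VV n → ℝ) (V : Set (VV n)),
      IsOpen V ∧ K ⊆ V ∧ V ⊆ Ω ∧ (∀ k ∈ S, Sm U (ψ k)) ∧
      (∀ k ∈ S, tsupport (ψ k) ∩ K ⊆ Ω ∩ cell (LA n A) k) ∧
      (∀ z ∈ V, ∑ k ∈ S, ψ k z ^ 2 = 1) ∧
      ∀ z ∈ V, Pc d.sx d.sy (d.W q) e wc S ψ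
        (8 * ((n : ℝ) ^ 3 * ((4 + 2 * C) * C)) * (n * ((1 / (2 * A)) ^ 2 * (3 * B ^ 2) ^ n)))
        (20 * ((n : ℝ) + 1) ^ 4 * ((1 / (2 * A)) ^ 2 * (3 * B ^ 2) ^ n)) z := by
  have hc : |1 / (2 * A)| ≤ 1 := by
    rw [abs_of_pos (by positivity), div_le_one (by positivity)]
    linarith
  refine part_ex hB (Lc_x d.s₁ A) (Lc_y d.s₂ A) hc hΩ (fun z _ => Sb_x ok hε hR z)
    (fun z _ => Sb_y ok hε hR z) (by positivity) (fun z hz => ?_) (fun z hz => ?_)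
    (fun z hz => ?_) K hK hKΩ
  · exact (Real.exp_pos _).le.trans (he z hz)
  · exact (Real.exp_pos _).le.trans (hw z hz)
  · exact HB_WB (wb z hz) (fun i => (Lc_x d.s₁ A).η i z) (fun i => (Lc_y d.s₂ A).η i z) C0
      (hr z hz) (he z hz) (hw z hz)

end pk

end Vale.Agent.P088.R2.H858.B1
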