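import Vale.Agent.P088.R2.H858.B1.HB
import Vale.Agent.P088.R2.H606.Z.Wb
import Vale.Agent.P088.R2.H606.EP.Wok

/-!
# P088, zone B1: the Hessian form of the weight from above, with a constant depending on `n` only
-/

open MeasureTheory Set Filter
open scoped ContDiff Topology Matrix

noncomputable section

namespace Vale.Agent.P088.R2.H858.B1

open Vale.Agent.P088.R2.H961.GW Vale.Agent.P088.R2.H644 Vale.Agent.P088.R2.H676.F
open Vale.Agent.P088.LR Vale.Agent.P088.HY Vale.Agent.P088.R2.H464.Cu Vale.Agent.P088.R2.H31.EP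
open Vale.Agent.P088.R2.H606.Z (D2 FS Wg Wg_d Wg_dd rq_d_le rq_dd_le cr cr_nonneg cW ar2)
open Vale.Agent.P088.R2.H606.EP (Lm Loc Uz Au Au_nonneg ten eT_le d2_u pn_ok Ob)

variable {n : ℕ} {q : Cst} {d : Pk n} {z : VV n}

/-- A slot with constant unit directions. -/
structure Us (σ : Sl (VV n) (Fin n)) : Prop where
  ρ : ∀ z, σ.ρ z = 1
  e : ∀ i, ‖σ.e i‖ ≤ 1

theorem Us_x (s : MF n) : Us (slx (fun _ => (1:ℝ)) s) where
  ρ _ := rfl
  e i := by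
    show ‖((Pi.single i 1, 0) : VV n)‖ ≤ 1
    rw [Prod.norm_def, Pi.norm_single]
    simp

theorem Us_y (s : MF n) : Us (sly (fun _ => (1:ℝ)) s) where
  ρ _ := rfl
  e i := by
    show ‖((0, Pi.single i 1) : VV n)‖ ≤ 1
    rw [Prod.norm_def, Pi.norm_single]
    simp

theorem Us.D1 {σ : Sl (VV n) (Fin n)} (h : Us σ) {W : VV n → ℝ} {c : ℝ}
    (hW : ∀ w, |fderiv ℝ W z w| ≤ c * ‖w‖) (i : Fin n) : |σ.D i W z| ≤ c := by
  unfold Sl.D
  rw [h.ρ, one_mul]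
  have h1 := hW (σ.e i)
  have h2 := h.e i
  have h3 := norm_nonneg (σ.e i)
  by_cases hc : 0 ≤ c
  · exact h1.trans (by nlinarith)
  · have h4 := abs_nonneg (fderiv ℝ W z (σ.e i))
    rcases eq_or_lt_of_le h3 with h5 | h5
    · rw [← h5, mul_zero] at h1
      have h6 := hW ((Pi.single i 1, 0) : VV n)
      have h7 : ‖((Pi.single i 1, 0) : VV n)‖ = 1 := by
        rw [Prod.norm_def, Pi.norm_single]; simp
      rw [h7, mul_one] at h6
      have := abs_nonneg (fderiv ℝ W z ((Pi.single i 1, 0) : VV n))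
      linarith
    · nlinarith

theorem Us.D2 {σ τ : Sl (VV n) (Fin n)} (h : Us σ) (h' : Us τ) {W : VV n → ℝ} {c : ℝ}
    (hc : 0 ≤ c)
    (hW : ∀ w w', |fderiv ℝ (fun z => fderiv ℝ W z w) z w'| ≤ c * (‖w‖ * ‖w'‖)) (i j : Fin n) :
    |σ.D i (τ.D j W) z| ≤ c := by
  have e : τ.D j W = fun z => fderiv ℝ W z (τ.e j) := by
    funext z
    unfold Sl.D
    rw [h'.ρ, one_mul]
  rw [e]
  unfold Sl.D
  rw [h.ρ, one_mul]
  refine (hW (τ.e j) (σ.e i)).trans ?_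
  have h1 : ‖τ.e j‖ * ‖σ.e i‖ ≤ 1 * 1 :=
    mul_le_mul (h'.e j) (h.e i) (norm_nonneg _) zero_le_one
  have := mul_le_mul_of_nonneg_left h1 hc
  linarith

/-- The constant. -/
def cB (n : ℕ) : ℝ := cW n (Au n + 8)

theorem cB_nonneg (n : ℕ) : 0 ≤ cB n := by
  have := Au_nonneg n
  have := cr_nonneg n
  unfold cB cW
  positivity

/-- **First and second derivatives of the weight near the diagonal.** -/
theorem W_dd (h : PkOk q d) (m : Lm n q) (L : Loc q d z) (hN : |deriv d.Φ (d.u q z)| ≤ d.E q z)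
    (hK : |deriv (deriv d.Φ) (d.u q z)| ≤ d.E q z) :
    (∀ w, |fderiv ℝ (d.W q) z w| ≤ cB n * d.E q z * ‖w‖) ∧
    ∀ w w', |fderiv ℝ (fun z => fderiv ℝ (d.W q) z w) z w'| ≤
      cB n * d.E q z * (‖w‖ * ‖w'‖) := by
  obtain ⟨-, -, ng⟩ := ten h m univ isOpen_univ
  obtain ⟨e1, e2⟩ := eT_le h m
  have hR : 0 < q.R := by linarith [m.R1]
  have hRi : q.R⁻¹ ≤ 1 := inv_le_one_of_one_le₀ m.R1
  have hRi0 : 0 ≤ q.R⁻¹ := inv_nonneg.2 hR.le
  have hc : 2 ≤ H606.EP.cT n := H606.EP.cT_ge n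
  have eT0 : 0 ≤ H606.EP.cT n * q.ε := mul_nonneg (by linarith) m.ε0
  have dT : H606.EP.cT n * q.ε * q.R⁻¹ ≤ 1 := by
    have := mul_le_mul e2 hRi hRi0 (by norm_num)
    linarith
  have dT2 : H606.EP.cT n * q.ε * q.R⁻¹ ^ 2 ≤ 1 := by
    have h1 : q.R⁻¹ ^ 2 ≤ 1 := pow_le_one₀ hRi0 hRi
    have := mul_le_mul e2 h1 (by positivity) (by norm_num)
    linarith
  have A0 := Au_nonneg n
  have A8 : 0 ≤ Au n + 8 := by linarith
  have u0 := d2_u h m L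
  have hu : H606.Z.D2 (Uz (gi d.s₁) z) (Au n + 8) (d.u q) :=
    ⟨u0.op, u0.sm, fun z hz w => (u0.d1 z hz w).trans
      (mul_le_mul_of_nonneg_right (by linarith) (norm_nonneg _)),
      fun z hz w w' => (u0.d2 z hz w w').trans
      (mul_le_mul_of_nonneg_right (by linarith) (by positivity))⟩
  have f : FS d.Φ (deriv d.Φ) (deriv (deriv d.Φ)) (prS q.e₁) (H606.EP.prS₁ q.e₁)
      (H606.EP.prS₂ q.e₁) :=
    ⟨fun t => ((h.Φs.differentiable (by simp)) t).hasDerivAt,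
      fun t => ((h.Φ's.differentiable (by simp)) t).hasDerivAt,
      fun t => H606.EP.prS_d1 m.eg0 t, fun t => H606.EP.prS_d2 m.eg0 t⟩
  have hz := L.uz
  have r1 : 2 * rq (gi d.s₁) z < 1 := hz.2.2
  have r0 : 0 ≤ 2 * rq (gi d.s₁) z := by
    have h1 := (rq_bd ng (by linarith : (n : ℝ) * (H606.EP.cT n * q.ε) ≤ 1 / 2)
      (mem_univ (mid z))).1
    have h2 : 0 ≤ dt (dif z) (dif z) := dt_nonneg _
    linarith
  have pn := pn_ok m.eg0 r0 r1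
  have hE : 0 < d.E q z := Real.exp_pos _
  have hm : mid z ∈ (univ : Set (V n)) := mem_univ _
  have ev : d.W q =ᶠ[𝓝 z] Wg d.Φ (prS q.e₁) (d.u q) (gi d.s₁) :=
    L.eW.eventuallyEq_of_mem (L.uo.mem_nhds hz)
  have c0 := cr_nonneg n
  have q2 := L.q2
  have ρ1 : ∀ w : VV n, |fderiv ℝ (rq (gi d.s₁)) z w| ≤ cr n * ‖w‖ := by
    intro w
    refine (rq_d_le isOpen_univ ng (by linarith) dT hm (by linarith) w).trans ?_
    have : ‖w‖ * ‖dif z‖ ≤ ‖w‖ * 1 := mul_le_mul_of_nonneg_left (by linarith) (norm_nonneg _)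
    rw [mul_one] at this
    exact mul_le_mul_of_nonneg_left this c0
  have ρ2 : ∀ w w' : VV n, |fderiv ℝ (fun z => fderiv ℝ (rq (gi d.s₁)) z w) z w'| ≤
      cr n * (‖w‖ * ‖w'‖) := fun w w' =>
    rq_dd_le isOpen_univ ng (by linarith) dT dT2 hm (by linarith) w w'
  have hEe : Real.exp (d.u q z) = d.E q z := rfl
  have sS : |prS q.e₁ (2 * rq (gi d.s₁) z)| ≤ Au n + 8 := by
    rw [abs_of_nonneg (by linarith [pn.lo])]
    linarith [pn.hi]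
  have s1 : |H606.EP.prS₁ q.e₁ (2 * rq (gi d.s₁) z)| ≤ 1 + (Au n + 8) := by
    rw [abs_of_nonneg (by linarith [pn.l1])]
    linarith [pn.b1]
  have s2 : |H606.EP.prS₂ q.e₁ (2 * rq (gi d.s₁) z)| ≤ Au n + 8 := by
    rw [abs_of_nonneg pn.l2]
    linarith [pn.h2]
  constructor
  · intro w
    rw [ev.fderiv_eq, (Wg_d f hu hz isOpen_univ ng.sm hm w).e, hEe]
    obtain ⟨x, hx⟩ : ∃ x, x = ‖w‖ := ⟨_, rfl⟩
    obtain ⟨A, hA⟩ : ∃ A, A = Au n + 8 := ⟨_, rfl⟩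
    obtain ⟨c, hcc⟩ : ∃ c, c = cr n := ⟨_, rfl⟩
    obtain ⟨E, hE'⟩ : ∃ E, E = d.E q z := ⟨_, rfl⟩
    have x0 : 0 ≤ x := by rw [hx]; exact norm_nonneg _
    have d1 := hu.d1 z hz w
    have d2 := ρ1 w
    unfold cB cW
    rw [← hA] at sS s1 d1 A8 ⊢
    rw [← hx] at d1 d2 ⊢
    rw [← hcc] at d2 c0 ⊢
    rw [← hE'] at hN hE ⊢
    have t1 : |deriv d.Φ (d.u q z) + E * prS q.e₁ (2 * rq (gi d.s₁) z)| ≤ E + E * A := by
      refine (abs_add_le _ _).trans (add_le_add hN ?_)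
      rw [abs_mul, abs_of_pos hE]
      exact mul_le_mul_of_nonneg_left sS hE.le
    have m1 : |(deriv d.Φ (d.u q z) + E * prS q.e₁ (2 * rq (gi d.s₁) z)) *
        fderiv ℝ (d.u q) z w| ≤ (E + E * A) * (A * x) := by
      rw [abs_mul]
      exact mul_le_mul t1 d1 (abs_nonneg _) (by positivity)
    have m2 : |2 * (E * H606.EP.prS₁ q.e₁ (2 * rq (gi d.s₁) z)) *
        fderiv ℝ (rq (gi d.s₁)) z w| ≤ 2 * (E * (1 + A)) * (c * x) := by
      rw [abs_mul, abs_mul, abs_mul, abs_of_pos hE, abs_of_pos (by norm_num : (0:ℝ) < 2)]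
      exact mul_le_mul (mul_le_mul_of_nonneg_left (mul_le_mul_of_nonneg_left s1 hE.le)
        (by norm_num)) d2 (abs_nonneg _) (by positivity)
    refine (abs_add_le _ _).trans ((add_le_add m1 m2).trans ?_)
    have e : (E + E * A) * (A * x) + 2 * (E * (1 + A)) * (c * x) =
        ((1 + A) * (A + 2 * c)) * (E * x) := by ring
    rw [e, mul_assoc _ E x]
    refine mul_le_mul_of_nonneg_right ?_ (by positivity)
    have b1 : 1 ≤ 1 + A := by linarith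
    have b2 : 1 ≤ 1 + c := by linarith
    have b3 : A + 2 * c ≤ 2 * ((1 + A) * (1 + c)) := by nlinarith [mul_nonneg A8 c0]
    have b4 : (1 + A) * (1 + c) ≤ (1 + A) ^ 2 * (1 + c) ^ 2 := by
      have : 1 ≤ (1 + A) * (1 + c) := by nlinarith [mul_nonneg A8 c0]
      calc (1 + A) * (1 + c) = (1 + A) * (1 + c) * 1 := by ring
        _ ≤ (1 + A) * (1 + c) * ((1 + A) * (1 + c)) :=
          mul_le_mul_of_nonneg_left this (by positivity)
        _ = _ := by ring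
    have b5 : (1 + A) * (A + 2 * c) ≤ (1 + A) * (2 * ((1 + A) ^ 2 * (1 + c) ^ 2)) :=
      mul_le_mul_of_nonneg_left (b3.trans (by linarith)) (by linarith)
    have b6 : 0 ≤ (1 + A) ^ 3 * (1 + c) ^ 2 := by positivity
    have b7 : (1 + A) * (2 * ((1 + A) ^ 2 * (1 + c) ^ 2)) = 2 * ((1 + A) ^ 3 * (1 + c) ^ 2) := by
      ring
    linarith
  · intro w w'
    have ev2 : (fun z => fderiv ℝ (d.W q) z w) =ᶠ[𝓝 z]
        fun z => fderiv ℝ (Wg d.Φ (prS q.e₁) (d.u q) (gi d.s₁)) z w := by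
      filter_upwards [ev.eventuallyEq_nhds] with y hy
      rw [hy.fderiv_eq]
    rw [ev2.fderiv_eq, Wg_dd f hu hz isOpen_univ ng.sm hm w w', hEe]
    exact ar2 hE A8 c0 (norm_nonneg w) (norm_nonneg w') (hu.d1 z hz w) (hu.d1 z hz w')
      (hu.d2 z hz w w') (ρ1 w) (ρ1 w') (ρ2 w w') hN hK sS s1 s2

/-- The constant of `HB`. -/
def hbC (n : ℕ) : ℝ := (n : ℝ) ^ 3 * ((4 + 2 * 1) * cB n)

theorem hbC_nonneg (n : ℕ) : 0 ≤ hbC n := by
  have := cB_nonneg n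
  unfold hbC
  positivity

/-- **The Hessian form of the true weight from above.** -/
theorem hb_pk (h : PkOk q d) (m : Lm n q) (L : Loc q d z)
    (hN : |deriv d.Φ (d.u q z)| ≤ d.E q z) (hK : |deriv (deriv d.Φ) (d.u q z)| ≤ d.E q z)
    {e wc : VV n → ℝ} (he : d.E q z ≤ e z) (hw : d.E q z ≤ wc z) :
    HB d.sx d.sy (d.W q) e wc (hbC n) z := by
  obtain ⟨w1, w2⟩ := W_dd h m L hN hK
  have S := Sb_x h m.ε1 m.R1 z
  have S' := Sb_y h m.ε1 m.R1 z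
  have hE : 0 < d.E q z := Real.exp_pos _
  have c0 : 0 ≤ cB n * d.E q z := mul_nonneg (cB_nonneg n) hE.le
  exact HB_of S.s S'.s S.d S'.d (fun i => (Lc_x d.s₁ 1).η i z) (fun i => (Lc_y d.s₂ 1).η i z)
    (fun i => (Us_x d.s₁).D1 w1 i) (fun i => (Us_y d.s₂).D1 w1 i)
    (fun i j => (Us_x d.s₁).D2 (Us_x d.s₁) c0 w2 i j)
    (fun i j => (Us_y d.s₂).D2 (Us_y d.s₂) c0 w2 i j)
    (fun i j => (Us_x d.s₁).D2 (Us_y d.s₂) c0 w2 i j) zero_le_one (cB_nonneg n) le_rfl he hw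

/-- **The partition on the package**, `b` depends only on `n`. -/
theorem part_pk' (h : PkOk q d) (m : Lm n q) {U Ω : Set (VV n)} {A B : ℝ} (hA : 1 ≤ A)
    (hB : ∀ m ≤ 2, ∀ t, |Fd m t| ≤ B) (hΩ : IsOpen Ω) {e wc : VV n → ℝ}
    (hL : ∀ z ∈ Ω, Loc q d z) (hN : ∀ z ∈ Ω, |deriv d.Φ (d.u q z)| ≤ d.E q z)
    (hK : ∀ z ∈ Ω, |deriv (deriv d.Φ) (d.u q z)| ≤ d.E q z)
    (he : ∀ z ∈ Ω, d.E q z ≤ e z) (hw : ∀ z ∈ Ω, d.E q z ≤ wc z) (K : Set (VV n))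
    (hKc : IsCompact K) (hKΩ : K ⊆ Ω) :
    ∃ (S : Finset (Fin n → ℤ)) (ψ : (Fin n → ℤ) → VV n → ℝ) (V : Set (VV n)),
      IsOpen V ∧ K ⊆ V ∧ V ⊆ Ω ∧ (∀ k ∈ S, Sm U (ψ k)) ∧
      (∀ k ∈ S, tsupport (ψ k) ∩ K ⊆ Ω ∩ cell (LA n A) k) ∧
      (∀ z ∈ V, ∑ k ∈ S, ψ k z ^ 2 = 1) ∧
      ∀ z ∈ V, Pc d.sx d.sy (d.W q) e wc S ψ
        (8 * hbC n * (n * ((1 / (2 * A)) ^ 2 * (3 * B ^ 2) ^ n)))
        (20 * ((n : ℝ) + 1) ^ 4 * ((1 / (2 * A)) ^ 2 * (3 * B ^ 2) ^ n)) z := by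
  have hc : |1 / (2 * A)| ≤ 1 := by
    rw [abs_of_pos (by positivity), div_le_one (by positivity)]
    linarith
  refine part_ex hB (Lc_x d.s₁ A) (Lc_y d.s₂ A) hc hΩ (fun z _ => Sb_x h m.ε1 m.R1 z)
    (fun z _ => Sb_y h m.ε1 m.R1 z) (hbC_nonneg n) (fun z hz => ?_) (fun z hz => ?_)
    (fun z hz => ?_) K hKc hKΩ
  · exact (Real.exp_pos _).le.trans (he z hz)
  · exact (Real.exp_pos _).le.trans (hw z hz)
  · exact hb_pk h m (hL z hz) (hN z hz) (hK z hz) (he z hz) (hw z hz)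

end Vale.Agent.P088.R2.H858.B1
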